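import Vale.Agent.P181.TR.Defs

set_option autoImplicit false

/-! P181, TR, row R2: the labels and contents of the letters. -/

namespace Vale.Agent.P181.TR.H221

open Vale.Agent.P181.TR

theorem sum_lt (n k : ℕ) (h : k ≤ n) : ∑ p : Fin n, (if (p : ℕ) < k then 1 else 0) = k := by
  rw [Fin.sum_univ_eq_sum_range (fun p => if p < k then 1 else 0) n, ← Finset.sum_filter]
  have h1 : (Finset.range n).filter (fun p => p < k) = Finset.range k := by
    ext p
    simp only [Finset.mem_filter, Finset.mem_range]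
    omega
  rw [h1]
  simp

/-- The content of the letter `i`. -/
def nu (t a i : ℕ) : ℕ := t / a + if i < t % a then 1 else 0

/-- The content of the piece `p` of the letter `i`. -/
def con (t a Q i p : ℕ) : ℕ := nu t a i / (Q + 1) + if p < nu t a i % (Q + 1) then 1 else 0

theorem sum_con (t a Q i : ℕ) : ∑ p : Fin (Q + 1), con t a Q i p = nu t a i := by
  unfold con
  rw [Finset.sum_add_distrib, Finset.sum_const, Finset.card_univ, Fintype.card_fin, smul_eq_mul,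
    sum_lt (Q + 1) _ (Nat.mod_lt _ (Nat.succ_pos Q)).le]
  exact Nat.div_add_mod _ _

theorem con_le (t a Q i p : ℕ) : con t a Q i p ≤ t / a / (Q + 1) + 2 := by
  have h1 : nu t a i ≤ t / a + (Q + 1) := by
    unfold nu
    split_ifs <;> omega
  have h2 : nu t a i / (Q + 1) ≤ t / a / (Q + 1) + 1 := by
    refine le_trans (Nat.div_le_div_right h1) ?_
    rw [Nat.add_div_right _ (Nat.succ_pos Q)]
  unfold con
  split_ifs <;> omega

section

variable {a Q R Y : ℕ}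

/-- The free part of the labels; the last piece compensates. -/
def fp (v : Fin a → Fin Q → Fin (R + 1) → Fin Y) (i : Fin a) (p : Fin (Q + 1))
    (u : Fin (R + 1)) : ℕ :=
  Fin.snoc (α := fun _ => ℕ) (fun p' => (v i p' u : ℕ)) (Q * (Y - 1) - ∑ p', (v i p' u : ℕ)) p

theorem fp_cast (v : Fin a → Fin Q → Fin (R + 1) → Fin Y) (i : Fin a) (p : Fin Q)
    (u : Fin (R + 1)) : fp v i p.castSucc u = v i p u := by
  unfold fp
  rw [Fin.snoc_castSucc]

theorem fp_last (v : Fin a → Fin Q → Fin (R + 1) → Fin Y) (i : Fin a)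
    (u : Fin (R + 1)) : fp v i (Fin.last Q) u = Q * (Y - 1) - ∑ p', (v i p' u : ℕ) := by
  unfold fp
  rw [Fin.snoc_last]

theorem sum_v_le (v : Fin a → Fin Q → Fin (R + 1) → Fin Y) (i : Fin a) (u : Fin (R + 1)) :
    ∑ p', (v i p' u : ℕ) ≤ Q * (Y - 1) := by
  have h := Finset.sum_le_card_nsmul (Finset.univ : Finset (Fin Q)) (fun p' => (v i p' u : ℕ))
    (Y - 1) (fun p' _ => by
      have := (v i p' u).isLt
      show ((v i p' u : Fin Y) : ℕ) ≤ Y - 1
      omega)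
  simpa using h

theorem sum_fp (v : Fin a → Fin Q → Fin (R + 1) → Fin Y) (i : Fin a) (u : Fin (R + 1)) :
    ∑ p, fp v i p u = Q * (Y - 1) := by
  rw [Fin.sum_univ_castSucc, fp_last]
  simp only [fp_cast]
  have := sum_v_le v i u
  omega

theorem fp_lt (hY : 1 ≤ Y) (v : Fin a → Fin Q → Fin (R + 1) → Fin Y) (i : Fin a)
    (p : Fin (Q + 1)) (u : Fin (R + 1)) : fp v i p u < (Q + 1) * Y := by
  refine Fin.lastCases ?_ (fun p => ?_) p
  · rw [fp_last]
    have h1 : Q * (Y - 1) ≤ Q * Y := Nat.mul_le_mul_left _ (Nat.sub_le _ _)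
    have h2 : (Q + 1) * Y = Q * Y + Y := by ring
    omega
  · rw [fp_cast]
    have h1 := (v i p u).isLt
    have h2 : (Q + 1) * Y = Q * Y + Y := by ring
    omega

/-- The labels in the rows `2, .., r`. -/
def lab (m : ℕ) (v : Fin a → Fin Q → Fin (R + 1) → Fin Y) (i : Fin a) (p : Fin (Q + 1))
    (u : Fin (R + 1)) : ℕ :=
  fp v i p u + if u = 0 then (Q + 1) * Y * ((i : ℕ) % m) else 0

theorem sum_lab_p (m : ℕ) (v : Fin a → Fin Q → Fin (R + 1) → Fin Y) (i : Fin a)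
    (u : Fin (R + 1)) : ∑ p, lab m v i p u =
      Q * (Y - 1) + (Q + 1) * (if u = 0 then (Q + 1) * Y * ((i : ℕ) % m) else 0) := by
  unfold lab
  rw [Finset.sum_add_distrib, sum_fp, Finset.sum_const, Finset.card_univ, Fintype.card_fin,
    smul_eq_mul]

theorem sum_lab_u (m : ℕ) (hm : 1 ≤ m) (hY : 1 ≤ Y) (v : Fin a → Fin Q → Fin (R + 1) → Fin Y)
    (i : Fin a) (p : Fin (Q + 1)) : ∑ u, lab m v i p u ≤ (Q + 1) * Y * (m + (R + 2)) := by
  unfold lab
  rw [Finset.sum_add_distrib, Finset.sum_ite_eq' Finset.univ (0 : Fin (R + 1))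
    (fun _ => (Q + 1) * Y * ((i : ℕ) % m)), if_pos (Finset.mem_univ _)]
  have h1 : ∑ u, fp v i p u ≤ (R + 1) * ((Q + 1) * Y) := by
    have h := Finset.sum_le_card_nsmul (Finset.univ : Finset (Fin (R + 1)))
      (fun u => fp v i p u) ((Q + 1) * Y) (fun u _ => (fp_lt hY v i p u).le)
    simpa using h
  have h2 : (Q + 1) * Y * ((i : ℕ) % m) ≤ (Q + 1) * Y * m :=
    Nat.mul_le_mul_left _ (Nat.mod_lt _ hm).le
  nlinarith

/-- The size of the piece `(i, p)`. -/
def sz (t a Q Y R m i p : ℕ) : ℕ :=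
  t / a / (Q + 1) + 2 + (Q + 1) * Y * (m + (R + 2)) + 1 + (Q + 1) * (i / m) + p

/-- The labels and contents. -/
def xx (t m : ℕ) (v : Fin a → Fin Q → Fin (R + 1) → Fin Y) (j : Fin a × Fin (Q + 1)) :
    (Fin (R + 2) → ℕ) × ℕ :=
  (Fin.cons (sz t a Q Y R m j.1 j.2 - con t a Q j.1 j.2 - ∑ u, lab m v j.1 j.2 u)
    (lab m v j.1 j.2), con t a Q j.1 j.2)

theorem xx_size (t m : ℕ) (hm : 1 ≤ m) (hY : 1 ≤ Y) (v : Fin a → Fin Q → Fin (R + 1) → Fin Y)
    (j : Fin a × Fin (Q + 1)) :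
    ∑ l, (xx t m v j).1 l + (xx t m v j).2 = sz t a Q Y R m j.1 j.2 := by
  unfold xx
  simp only [Fin.sum_univ_succ (n := R + 1), Fin.cons_zero, Fin.cons_succ]
  have h1 := con_le t a Q j.1 j.2
  have h2 := sum_lab_u m hm hY v j.1 j.2
  have h3 : t / a / (Q + 1) + 2 + (Q + 1) * Y * (m + (R + 2)) ≤ sz t a Q Y R m j.1 j.2 := by
    unfold sz
    omega
  have h4 : ∑ u, lab m v j.1 j.2 u = ∑ u : Fin (R + 1), lab m v j.1 j.2 u := rfl
  omega

theorem sum_xx_succ (t m : ℕ) (v v' : Fin a → Fin Q → Fin (R + 1) → Fin Y) (u : Fin (R + 1)) :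
    ∑ j, (xx t m v j).1 u.succ = ∑ j, (xx t m v' j).1 u.succ := by
  simp only [xx, Fin.cons_succ]
  rw [Fintype.sum_prod_type, Fintype.sum_prod_type]
  apply Finset.sum_congr rfl
  intro i _
  show ∑ p, lab m v i p u = ∑ p, lab m v' i p u
  rw [sum_lab_p, sum_lab_p]

theorem sum_xx (t m : ℕ) (hm : 1 ≤ m) (hY : 1 ≤ Y) (v v' : Fin a → Fin Q → Fin (R + 1) → Fin Y)
    (l : Fin (R + 2)) : ∑ j, (xx t m v j).1 l = ∑ j, (xx t m v' j).1 l := by
  refine Fin.cases ?_ (fun u => sum_xx_succ t m v v' u) l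
  have key : ∀ w : Fin a → Fin Q → Fin (R + 1) → Fin Y,
      ∑ j, (xx t m w j).1 0 + ∑ u : Fin (R + 1), ∑ j, (xx t m w j).1 u.succ +
        ∑ j : Fin a × Fin (Q + 1), con t a Q j.1 j.2 =
      ∑ j : Fin a × Fin (Q + 1), sz t a Q Y R m j.1 j.2 := by
    intro w
    rw [Finset.sum_comm, ← Finset.sum_add_distrib, ← Finset.sum_add_distrib]
    apply Finset.sum_congr rfl
    intro j _
    rw [← xx_size t m hm hY w j, Fin.sum_univ_succ (fun l => (xx t m w j).1 l)]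
    rfl
  have h1 := key v
  have h2 := key v'
  have h3 : ∑ u : Fin (R + 1), ∑ j, (xx t m v j).1 u.succ =
      ∑ u : Fin (R + 1), ∑ j, (xx t m v' j).1 u.succ :=
    Finset.sum_congr rfl (fun u _ => sum_xx_succ t m v v' u)
  omega

theorem xx_ne (t m : ℕ) (hY : 1 ≤ Y) (v v' : Fin a → Fin Q → Fin (R + 1) → Fin Y)
    (j j' : Fin a × Fin (Q + 1)) (h1 : (j.1 : ℕ) / m = (j'.1 : ℕ) / m) (h2 : j.2 = j'.2)
    (h3 : j ≠ j') : xx t m v j ≠ xx t m v' j' := by
  intro h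
  apply h3
  have h4 : lab m v j.1 j.2 0 = lab m v' j'.1 j'.2 0 := by
    have h5 := congrFun (congrArg Prod.fst h) (Fin.succ 0)
    simpa only [xx, Fin.cons_succ] using h5
  unfold lab at h4
  rw [if_pos rfl, if_pos rfl] at h4
  have h5 : (j.1 : ℕ) % m = (j'.1 : ℕ) % m := by
    have a1 := fp_lt hY v j.1 j.2 0
    have a2 := fp_lt hY v' j'.1 j'.2 0
    have h6 := congrArg (fun x => x / ((Q + 1) * Y)) h4
    have hpos : 0 < (Q + 1) * Y := Nat.mul_pos (Nat.succ_pos Q) hY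
    simp only [Nat.add_mul_div_left _ _ hpos, Nat.div_eq_of_lt a1, Nat.div_eq_of_lt a2,
      zero_add] at h6
    exact h6
  have h6 : (j.1 : ℕ) = j'.1 := by
    rw [← Nat.div_add_mod (j.1 : ℕ) m, ← Nat.div_add_mod (j'.1 : ℕ) m, h1, h5]
  exact Prod.ext (Fin.ext h6) h2

theorem xx_inj (t m : ℕ) : Function.Injective
    (fun (v : Fin a → Fin Q → Fin (R + 1) → Fin Y) (j : Fin a × Fin (Q + 1)) => xx t m v j) := by
  intro v v' h
  funext i p u
  have h1 := congrFun (congrArg Prod.fst (congrFun h (i, p.castSucc))) u.succ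
  simp only [xx, Fin.cons_succ, lab, fp_cast] at h1
  exact Fin.ext (Nat.add_right_cancel h1)

end

/-- **(R2)**. -/
theorem keyR : KeyR := by
  classical
  intro a q m Y r t ha hq hm hY hr
  obtain ⟨Q, rfl⟩ : ∃ Q, q = Q + 1 := ⟨q - 1, by omega⟩
  obtain ⟨R, rfl⟩ : ∃ R, r = R + 2 := ⟨r - 2, by omega⟩
  let v0 : Fin a → Fin Q → Fin (R + 1) → Fin Y := fun _ _ _ => ⟨0, hY⟩
  refine ⟨Finset.univ.image
    (fun (v : Fin a → Fin Q → Fin (R + 1) → Fin Y) (j : Fin a × Fin (Q + 1)) => xx t m v j),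
    fun l => ∑ j, (xx t m v0 j).1 l, ?_, ?_, ?_, ?_, ?_⟩
  · intro x hx j
    obtain ⟨v, _, rfl⟩ := Finset.mem_image.1 hx
    exact xx_size t m hm hY v j
  · intro x hx l
    obtain ⟨v, _, rfl⟩ := Finset.mem_image.1 hx
    exact sum_xx t m hm hY v v0 l
  · intro x hx i
    obtain ⟨v, _, rfl⟩ := Finset.mem_image.1 hx
    exact sum_con t a Q i
  · intro x hx x' hx' j j' h1 h2 h3
    obtain ⟨v, _, rfl⟩ := Finset.mem_image.1 hx
    obtain ⟨v', _, rfl⟩ := Finset.mem_image.1 hx'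
    exact xx_ne t m hY v v' j j' h1 h2 h3
  · rw [Finset.card_image_of_injective _ (xx_inj t m), Finset.card_univ, Fintype.card_pi]
    simp only [Fintype.card_pi, Fintype.card_fin, Finset.prod_const, Finset.card_univ]
    rw [← pow_mul, ← pow_mul]
    apply le_of_eq
    congr 1
    have e1 : Q + 1 - 1 = Q := by omega
    have e2 : R + 2 - 1 = R + 1 := by omega
    rw [e1, e2]
    ring

end Vale.Agent.P181.TR.H221
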