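import Vale.Agent.P181.TR.H221.Key

set_option autoImplicit false

/-! P181, TR, row R2 with the contents fixed. -/

namespace Vale.Agent.P181.TR.H221

open Vale.Agent.P181.TR

/-- `KeyR` with one more conjunct: the contents are the same for all members of `KS`. -/
theorem keyR' : ∀ (a q m Y r t : ℕ), 0 < a → 2 ≤ q → 1 ≤ m → 1 ≤ Y → 2 ≤ r →
    ∃ (KS : Finset (Fin a × Fin q → (Fin r → ℕ) × ℕ)) (T : Fin r → ℕ),
      (∀ x ∈ KS, ∀ j : Fin a × Fin q, ∑ l, (x j).1 l + (x j).2 =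
        t / a / q + 2 + q * Y * (m + r) + 1 + q * ((j.1 : ℕ) / m) + (j.2 : ℕ)) ∧
      (∀ x ∈ KS, ∀ l, ∑ j, (x j).1 l = T l) ∧
      (∀ x ∈ KS, ∀ i : Fin a, ∑ p, (x (i, p)).2 = t / a + if (i : ℕ) < t % a then 1 else 0) ∧
      (∀ x ∈ KS, ∀ x' ∈ KS, ∀ j j' : Fin a × Fin q, (j.1 : ℕ) / m = (j'.1 : ℕ) / m → j.2 = j'.2 →
        j ≠ j' → x j ≠ x' j') ∧
      Y ^ ((q - 1) * (r - 1) * a) ≤ KS.card ∧
      ∃ u : Fin a × Fin q → ℕ, (∀ x ∈ KS, ∀ j, (x j).2 = u j) ∧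
        (∀ j, u j ≤ t / a / q + 2) ∧
        ∀ i : Fin a, ∑ p, u (i, p) = t / a + if (i : ℕ) < t % a then 1 else 0 := by
  classical
  intro a q m Y r t ha hq hm hY hr
  obtain ⟨Q, rfl⟩ : ∃ Q, q = Q + 1 := ⟨q - 1, by omega⟩
  obtain ⟨R, rfl⟩ : ∃ R, r = R + 2 := ⟨r - 2, by omega⟩
  let v0 : Fin a → Fin Q → Fin (R + 1) → Fin Y := fun _ _ _ => ⟨0, hY⟩
  refine ⟨Finset.univ.image
    (fun (v : Fin a → Fin Q → Fin (R + 1) → Fin Y) (j : Fin a × Fin (Q + 1)) => xx t m v j),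
    fun l => ∑ j, (xx t m v0 j).1 l, ?_, ?_, ?_, ?_, ?_, fun j => con t a Q j.1 j.2, ?_, ?_, ?_⟩
  · intro x hx j
    obtain ⟨v, _, rfl⟩ := Finset.mem_image.1 hx
    exact xx_size t m hm hY v j
  · intro x hx l
    obtain ⟨v, _, rfl⟩ := Finset.mem_image.1 hx
    exact sum_xx t m hm hY v v0 l
  · intro x hx i
    obtain ⟨v, _, rfl⟩ := Finset.mem_image.1 hx
    exact sum_con t a Q i
  · intro x hx x' hx' j j' h1 h2 h3
    obtain ⟨v, _, rfl⟩ := Finset.mem_image.1 hx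
    obtain ⟨v', _, rfl⟩ := Finset.mem_image.1 hx'
    exact xx_ne t m hY v v' j j' h1 h2 h3
  · rw [Finset.card_image_of_injective _ (xx_inj t m), Finset.card_univ, Fintype.card_pi]
    simp only [Fintype.card_pi, Fintype.card_fin, Finset.prod_const, Finset.card_univ]
    rw [← pow_mul, ← pow_mul]
    apply le_of_eq
    congr 1
    have e1 : Q + 1 - 1 = Q := by omega
    have e2 : R + 2 - 1 = R + 1 := by omega
    rw [e1, e2]
    ring
  · intro x hx j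
    obtain ⟨v, _, rfl⟩ := Finset.mem_image.1 hx
    rfl
  · intro j
    exact con_le t a Q j.1 j.2
  · intro i
    exact sum_con t a Q i

end Vale.Agent.P181.TR.H221
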